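import Mathlib
import Vale.Agent.P260.H493.Basic

/-!
# P260 climb, block V, V4: a character from the Euler characteristic
-/

namespace Vale.Agent.P260.H324

open MonoidAlgebra Vale.Agent.P260.H493

section

variable {k Γ : Type} [Field k] [Group Γ] {ι κ μ : Type}

/-- the augmentation -/
noncomputable def au (k Γ : Type) [Field k] [Group Γ] : MonoidAlgebra k Γ →ₐ[k] k :=
  MonoidAlgebra.lift k k Γ (1 : Γ →* k)

theorem au_single (g : Γ) (r : k) : au k Γ (single g r) = r := by
  simp [au, MonoidAlgebra.lift_single]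

/-- the augmentation of a vector -/
noncomputable def av (v : ι → MonoidAlgebra k Γ) : ι → k := fun i => au k Γ (v i)

theorem av_add (v w : ι → MonoidAlgebra k Γ) : av (v + w) = av v + av w := by
  funext i; simp [av]

theorem av_sub (v w : ι → MonoidAlgebra k Γ) : av (v - w) = av v - av w := by
  funext i; simp [av]

theorem av_zero : av (0 : ι → MonoidAlgebra k Γ) = 0 := by
  funext i; simp [av]

theorem av_smul (a : MonoidAlgebra k Γ) (v : ι → MonoidAlgebra k Γ) :
    av (a • v) = au k Γ a • av v := by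
  funext i; simp [av]

theorem av_ksmul (a : k) (v : ι → MonoidAlgebra k Γ) : av (a • v) = a • av v := by
  funext i; simp [av]

theorem av_sum {α : Type} (s : Finset α) (f : α → ι → MonoidAlgebra k Γ) :
    av (∑ a ∈ s, f a) = ∑ a ∈ s, av (f a) := by
  funext i; simp [av, Finset.sum_apply]

theorem av_single [DecidableEq ι] (i : ι) :
    av (Pi.single i 1 : ι → MonoidAlgebra k Γ) = Pi.single i 1 := by
  funext j
  by_cases h : j = i
  · subst h; simp [av]
  · simp [av, h]

theorem av_surj (k Γ : Type) [Field k] [Group Γ] {ι : Type} : Function.Surjective (av : (ι → MonoidAlgebra k Γ) → (ι → k)) := by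
  intro c
  refine ⟨fun i => single 1 (c i), ?_⟩
  funext i
  simp [av, au_single]

/-- The map of augmentations. -/
noncomputable def bar [Fintype ι] [DecidableEq ι]
    (T : (ι → MonoidAlgebra k Γ) →ₗ[MonoidAlgebra k Γ] (κ → MonoidAlgebra k Γ)) :
    (ι → k) →ₗ[k] (κ → k) :=
  Fintype.linearCombination k fun i => av (T (Pi.single i 1))

theorem bar_av [Fintype ι] [DecidableEq ι]
    (T : (ι → MonoidAlgebra k Γ) →ₗ[MonoidAlgebra k Γ] (κ → MonoidAlgebra k Γ))
    (v : ι → MonoidAlgebra k Γ) : bar T (av v) = av (T v) := by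
  have h : v = ∑ i, v i • (Pi.single i 1 : ι → MonoidAlgebra k Γ) := by
    funext j
    simp [Finset.sum_apply, Pi.single_apply]
  conv_rhs => rw [h, map_sum, av_sum]
  simp only [bar, Fintype.linearCombination_apply, map_smul, av_smul]
  rfl

/-- trace of the matrix of augmentations -/
noncomputable def trA {r : ℕ} (T : (Fin r → MonoidAlgebra k Γ) →ₗ[MonoidAlgebra k Γ]
    (Fin r → MonoidAlgebra k Γ)) : k :=
  ∑ j, au k Γ (T (Pi.single j 1) j)

theorem trace_bar {r : ℕ} (T : (Fin r → MonoidAlgebra k Γ) →ₗ[MonoidAlgebra k Γ]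
    (Fin r → MonoidAlgebra k Γ)) : LinearMap.trace k _ (bar T) = trA T := by
  rw [LinearMap.trace_eq_matrix_trace k (Pi.basisFun k (Fin r)), Matrix.trace, trA]
  refine Finset.sum_congr rfl fun j _ => ?_
  rw [Matrix.diag_apply, LinearMap.toMatrix_apply]
  simp only [Pi.basisFun_apply, Pi.basisFun_repr]
  have : (Pi.single j (1 : k) : Fin r → k) = av (Pi.single j 1 : Fin r → MonoidAlgebra k Γ) :=
    (av_single j).symm
  rw [this, bar_av]
  rfl

/-- a `Γ`-invariant functional factors through the augmentation -/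
theorem inv_factor [Fintype ι] [DecidableEq ι] (χ : (ι → MonoidAlgebra k Γ) →ₗ[k] k)
    (h : ∀ (g : Γ) v, χ (single g (1 : k) • v) = χ v) (v : ι → MonoidAlgebra k Γ) (hv : av v = 0) :
    χ v = 0 := by
  have h1 : χ v = ∑ j, av v j * χ (Pi.single j 1) := by
    conv_lhs => rw [expand v]
    rw [map_sum]
    refine Finset.sum_congr rfl fun j _ => ?_
    rw [map_sum]
    simp only [map_smul, h]
    rw [← Finset.sum_smul]
    congr 1
    have h2 : v j = ∑ g ∈ (v j).coeff.support, single g ((v j).coeff g) := by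
      conv_lhs => rw [← sum_coeff_single (v j)]
      rfl
    rw [av]
    conv_rhs => rw [h2, map_sum]
    simp [au_single]
  rw [h1, hv]
  simp

end

/-- A functional which does not vanish on `ker d̄₀` but on `im d̄₁` gives a character. -/
theorem exists_char {Γ : Type} [Group Γ] (P : PDG ℚ Γ 1) (φ : (Fin (P.r 1) → ℚ) →ₗ[ℚ] ℚ)
    (h1 : ∀ c, φ (bar (P.d 1) c) = 0) (h2 : ∃ c, bar (P.d 0) c = 0 ∧ φ c ≠ 0) :
    ∃ θ : Γ → ℚ, (∀ a b, θ (a * b) = θ a + θ b) ∧ ∃ g, θ g ≠ 0 := by
  obtain ⟨v₀, hv₀⟩ := P.eps_surj 1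
  -- the functional on `F₁`
  let φ' : (Fin (P.r 1) → MonoidAlgebra ℚ Γ) →ₗ[ℚ] ℚ :=
    { toFun := fun v => φ (av v)
      map_add' := fun v w => by rw [av_add, map_add]
      map_smul' := fun a v => by rw [av_ksmul, map_smul]; rfl }
  have hφ' : ∀ v, φ' v = φ (av v) := fun v => rfl
  have hφd : ∀ w, φ' (P.d 1 w) = 0 := fun w => by rw [hφ', ← bar_av, h1]
  have hφg : ∀ (g : Γ) w, φ' (single g (1 : ℚ) • w) = φ' w := fun g w => by
    rw [hφ', hφ', av_smul, au_single, one_smul]
  let D : (Fin (P.r 1) → MonoidAlgebra ℚ Γ) →ₗ[ℚ] (Fin (P.r 0) → MonoidAlgebra ℚ Γ) :=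
    { toFun := fun v => P.d 0 v
      map_add' := fun v w => map_add _ v w
      map_smul' := fun a v => map_k_smul _ a v }
  have hD : ∀ v, D v = P.d 0 v := fun v => rfl
  obtain ⟨s, hs⟩ := D.rangeRestrict.exists_rightInverse_of_surjective
    (LinearMap.range_eq_top.2 D.surjective_rangeRestrict)
  obtain ⟨f, hf⟩ := LinearMap.exists_extend (φ' ∘ₗ s)
  have hfD : ∀ w, f (P.d 0 w) = φ' w := by
    intro w
    have h3 : f (P.d 0 w) = φ' (s (D.rangeRestrict w)) := by
      exact LinearMap.congr_fun hf (D.rangeRestrict w)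
    have h4 : P.d 0 (s (D.rangeRestrict w)) = P.d 0 w := by
      have := LinearMap.congr_fun hs (D.rangeRestrict w)
      have := congrArg Subtype.val this
      simpa [hD] using this
    have h5 : P.d 0 (s (D.rangeRestrict w) - w) = 0 := by rw [map_sub, h4, sub_self]
    obtain ⟨u, hu⟩ := (P.ex 0 (by norm_num) _).1 h5
    have h6 : φ' (s (D.rangeRestrict w) - w) = 0 := by rw [← hu]; exact hφd u
    rw [map_sub, sub_eq_zero] at h6
    rw [h3, h6]
  have hfg : ∀ (g : Γ) v, P.ε v = 0 → f (single g (1 : ℚ) • v) = f v := by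
    intro g v hv
    obtain ⟨w, rfl⟩ := (P.ex0 v).1 hv
    rw [← LinearMap.map_smul, hfD, hfD, hφg]
  let θ : Γ → ℚ := fun g => f (single g (1 : ℚ) • v₀ - v₀)
  refine ⟨θ, ?_, ?_⟩
  · intro a b
    have h3 : (single (a * b) (1 : ℚ) : MonoidAlgebra ℚ Γ) • v₀ - v₀ =
        single a (1 : ℚ) • (single b (1 : ℚ) • v₀ - v₀) + (single a (1 : ℚ) • v₀ - v₀) := by
      rw [smul_sub, smul_smul, single_mul_single, one_mul]
      abel
    have h4 : P.ε (single b (1 : ℚ) • v₀ - v₀) = 0 := by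
      rw [map_sub, P.eps_smul, sub_self]
    change f _ = f _ + f _
    rw [h3, map_add, hfg _ _ h4, add_comm]
  · by_contra hθ
    push Not at hθ
    let χ : (Fin (P.r 0) → MonoidAlgebra ℚ Γ) →ₗ[ℚ] ℚ := f - (f v₀) • P.ε
    have hχ : ∀ v, χ v = f (v - P.ε v • v₀) := by
      intro v
      simp only [χ, LinearMap.sub_apply, LinearMap.smul_apply, map_sub, map_smul, smul_eq_mul]
      ring
    have hε : ∀ v, P.ε (v - P.ε v • v₀) = 0 := by
      intro v
      rw [map_sub, map_smul, hv₀, smul_eq_mul, mul_one, sub_self]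
    have hχg : ∀ (g : Γ) v, χ (single g (1 : ℚ) • v) = χ v := by
      intro g v
      rw [hχ, hχ, P.eps_smul]
      have h3 : (single g (1 : ℚ) : MonoidAlgebra ℚ Γ) • v - P.ε v • v₀ =
          single g (1 : ℚ) • (v - P.ε v • v₀) + P.ε v • (single g (1 : ℚ) • v₀ - v₀) := by
        rw [smul_sub, smul_sub, smul_comm (single g (1 : ℚ)) (P.ε v) v₀]
        abel
      rw [h3, map_add, hfg _ _ (hε v), map_smul]
      have h4 : f (single g (1 : ℚ) • v₀ - v₀) = 0 := hθ g
      rw [h4, smul_zero, add_zero]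
    obtain ⟨c, hc, hφc⟩ := h2
    obtain ⟨w, rfl⟩ := av_surj ℚ Γ c
    rw [bar_av] at hc
    have h3 := inv_factor χ hχg _ hc
    apply hφc
    have h4 : P.ε (P.d 0 w) = 0 := (P.ex0 _).2 ⟨w, rfl⟩
    rw [hχ, h4, zero_smul, sub_zero, hfD, hφ'] at h3
    exact h3

/-- V4, first part. -/
theorem exists_char_of_trace {Γ : Type} [Group Γ] (P : PDG ℚ Γ 1)
    (h : trA P.π ≤ (P.r 1 : ℚ) - P.r 0) :
    ∃ θ : Γ → ℚ, (∀ a b, θ (a * b) = θ a + θ b) ∧ ∃ g, θ g ≠ 0 := by
  -- the idempotent
  have hpi : bar P.π ∘ₗ bar P.π = bar P.π := by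
    refine LinearMap.ext fun c => ?_
    obtain ⟨v, rfl⟩ := av_surj ℚ Γ c
    rw [LinearMap.comp_apply, bar_av, bar_av, P.pi_pi]
  have hd1 : bar (P.d 1) ∘ₗ bar P.π = bar (P.d 1) := by
    refine LinearMap.ext fun c => ?_
    obtain ⟨v, rfl⟩ := av_surj ℚ Γ c
    rw [LinearMap.comp_apply, bar_av, bar_av, bar_av, P.d_pi]
  have hrk : ((Module.finrank ℚ (LinearMap.range (bar P.π)) : ℕ) : ℚ) = trA P.π := by
    rw [← trace_bar]
    have h3 : IsIdempotentElem (bar P.π) := hpi
    exact ((LinearMap.isProj_range_iff_isIdempotentElem _).2 h3).trace.symm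
  have hr1 : Module.finrank ℚ (LinearMap.range (bar (P.d 1))) ≤
      Module.finrank ℚ (LinearMap.range (bar P.π)) := by
    rw [← hd1, LinearMap.range_comp]
    exact Submodule.finrank_map_le _ _
  have hle : Module.finrank ℚ (LinearMap.range (bar (P.d 1))) + P.r 0 ≤ P.r 1 := by
    have h3 : ((Module.finrank ℚ (LinearMap.range (bar P.π)) : ℕ) : ℚ) + P.r 0 ≤ P.r 1 := by
      rw [hrk]; linarith
    have h4 : Module.finrank ℚ (LinearMap.range (bar P.π)) + P.r 0 ≤ P.r 1 := by exact_mod_cast h3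
    omega
  -- the range of `d̄₀` is not everything
  have hlt : Module.finrank ℚ (LinearMap.range (bar (P.d 0))) < P.r 0 := by
    have h3 : LinearMap.range (bar (P.d 0)) < ⊤ := by
      rw [lt_top_iff_ne_top]
      intro h4
      rw [LinearMap.range_eq_top] at h4
      obtain ⟨v₀, hv₀⟩ := P.eps_surj 1
      obtain ⟨c, hc⟩ := h4 (av v₀)
      obtain ⟨w, rfl⟩ := av_surj ℚ Γ c
      rw [bar_av] at hc
      have h5 := inv_factor P.ε P.eps_smul (v₀ - P.d 0 w) (by rw [av_sub, hc, sub_self])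
      rw [map_sub, (P.ex0 _).2 ⟨w, rfl⟩, hv₀] at h5
      norm_num at h5
    have h4 := Submodule.finrank_lt h3.ne
    simpa using h4
  have hker : Module.finrank ℚ (LinearMap.range (bar (P.d 1))) <
      Module.finrank ℚ (LinearMap.ker (bar (P.d 0))) := by
    have := LinearMap.finrank_range_add_finrank_ker (bar (P.d 0))
    simp only [Module.finrank_fintype_fun_eq_card, Fintype.card_fin] at this
    have h01 : P.r (0 + 1) = P.r 1 := rfl
    omega
  have hnle : ¬ LinearMap.ker (bar (P.d 0)) ≤ LinearMap.range (bar (P.d 1)) := by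
    intro h3
    exact absurd hker (not_lt.2 (Submodule.finrank_mono h3))
  obtain ⟨c, hc, hc'⟩ := SetLike.not_le_iff_exists.1 hnle
  obtain ⟨φ, hφ, hφ'⟩ := Submodule.exists_dual_map_eq_bot_of_notMem hc' inferInstance
  refine exists_char P φ ?_ ⟨c, by simpa using hc, hφ⟩
  intro w
  have : φ (bar (P.d 1) w) ∈ (LinearMap.range (bar (P.d 1))).map φ :=
    Submodule.mem_map_of_mem (LinearMap.mem_range_self _ _)
  rw [hφ'] at this
  simpa using this

/-- A nonzero rational character of a finitely generated group gives a surjective integral one. -/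
theorem exists_surj_of_char {Γ : Type} [Group Γ] (S : Finset Γ)
    (hS : Subgroup.closure (S : Set Γ) = ⊤) (θ : Γ → ℚ) (hθ : ∀ a b, θ (a * b) = θ a + θ b)
    (hne : ∃ g, θ g ≠ 0) : ∃ ψ : Γ →* Multiplicative ℤ, Function.Surjective ψ := by
  have h1 : θ 1 = 0 := by have := hθ 1 1; simp at this; exact this
  have hinv : ∀ a, θ a⁻¹ = - θ a := by
    intro a
    have := hθ a a⁻¹
    rw [mul_inv_cancel, h1] at this
    linarith
  obtain ⟨N, hN, hNS⟩ : ∃ N : ℕ, 0 < N ∧ ∀ s ∈ S, ∃ z : ℤ, (N : ℚ) * θ s = z := by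
    refine ⟨∏ s ∈ S, (θ s).den, Finset.prod_pos fun s _ => (θ s).den_pos, fun s hs => ?_⟩
    obtain ⟨q, hq⟩ := Finset.dvd_prod_of_mem (fun s => (θ s).den) hs
    refine ⟨q * (θ s).num, ?_⟩
    rw [hq]
    push_cast
    have := Rat.den_mul_eq_num (θ s)
    rw [mul_comm ((θ s).den : ℚ), mul_assoc, this]
  have hall : ∀ g : Γ, ∃ z : ℤ, (N : ℚ) * θ g = z := by
    intro g
    have hg : g ∈ Subgroup.closure (S : Set Γ) := by rw [hS]; trivial
    induction hg using Subgroup.closure_induction with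
    | mem x hx => exact hNS x hx
    | one => exact ⟨0, by simp [h1]⟩
    | mul x y _ _ hx hy =>
      obtain ⟨a, ha⟩ := hx
      obtain ⟨b, hb⟩ := hy
      exact ⟨a + b, by rw [hθ, mul_add, ha, hb]; push_cast; ring⟩
    | inv x _ hx =>
      obtain ⟨a, ha⟩ := hx
      exact ⟨-a, by rw [hinv, mul_neg, ha]; push_cast; ring⟩
  choose z hz using hall
  have hzm : ∀ a b, z (a * b) = z a + z b := by
    intro a b
    have : ((z (a * b) : ℤ) : ℚ) = z a + z b := by rw [← hz, ← hz, ← hz, hθ]; ring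
    exact_mod_cast this
  let Z : AddSubgroup ℤ :=
    { carrier := Set.range z
      add_mem' := by
        rintro _ _ ⟨a, rfl⟩ ⟨b, rfl⟩
        exact ⟨a * b, hzm a b⟩
      zero_mem' := ⟨1, by have := hzm 1 1; simp at this; exact this⟩
      neg_mem' := by
        rintro _ ⟨a, rfl⟩
        refine ⟨a⁻¹, ?_⟩
        have h3 := hzm a a⁻¹
        have h4 : z 1 = 0 := by have := hzm 1 1; simp at this; exact this
        rw [mul_inv_cancel, h4] at h3
        omega }
  obtain ⟨a, ha⟩ := Int.subgroup_cyclic Z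
  have hmem : ∀ g, ∃ q : ℤ, z g = q * a := by
    intro g
    have h3 : z g ∈ Z := ⟨g, rfl⟩
    rw [ha, AddSubgroup.mem_closure_singleton] at h3
    obtain ⟨q, hq⟩ := h3
    exact ⟨q, by rw [← hq]; simp⟩
  have ha0 : a ≠ 0 := by
    rintro rfl
    obtain ⟨g, hg⟩ := hne
    obtain ⟨q, hq⟩ := hmem g
    have h3 := hz g
    rw [hq] at h3
    simp only [mul_zero, Int.cast_zero, mul_eq_zero, Nat.cast_eq_zero] at h3
    rcases h3 with h3 | h3
    · omega
    · exact hg h3
  choose q hq using hmem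
  have hqm : ∀ x y, q (x * y) = q x + q y := by
    intro x y
    have h3 : q (x * y) * a = (q x + q y) * a := by rw [← hq, hzm, hq, hq]; ring
    exact mul_right_cancel₀ ha0 h3
  refine ⟨MonoidHom.mk' (fun g => Multiplicative.ofAdd (q g)) fun x y => by
    rw [hqm]; rfl, ?_⟩
  have haZ : a ∈ Z := by rw [ha]; exact AddSubgroup.mem_closure_singleton_self a
  obtain ⟨g, hg⟩ := haZ
  have hg1 : q g = 1 := by
    have h3 : q g * a = 1 * a := by rw [← hq, one_mul]; exact hg
    exact mul_right_cancel₀ ha0 h3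
  intro n
  refine ⟨g ^ (Multiplicative.toAdd n), ?_⟩
  rw [map_zpow]
  change (Multiplicative.ofAdd (q g)) ^ (Multiplicative.toAdd n) = n
  rw [hg1, ← ofAdd_zsmul]
  simp

/-- V4. -/
theorem v4 {Γ : Type} [Group Γ] (P : PDG ℚ Γ 1) (S : Finset Γ) (hS : GenSet S)
    (h : trA P.π ≤ (P.r 1 : ℚ) - P.r 0) :
    ∃ ψ : Γ →* Multiplicative ℤ, Function.Surjective ψ := by
  obtain ⟨θ, hθ, hne⟩ := exists_char_of_trace P h
  exact exists_surj_of_char S hS.gen θ hθ hne

end Vale.Agent.P260.H324
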