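import Mathlib
import Vale.Agent.P260.H324.V4
import Vale.Agent.P260.H802.VSpec

/-!
# P260 climb, block V, V4: `StmtChar`
-/

namespace Vale.Agent.P260.H324

open MonoidAlgebra Vale.Agent.P260.H493

theorem au_eq_sum {k Γ : Type} [Field k] [Group Γ] (x : MonoidAlgebra k Γ) :
    au k Γ x = x.coeff.sum fun _ a => a := by
  conv_lhs => rw [← sum_coeff_single x]
  rw [Finsupp.sum, map_sum]
  simp only [au_single]
  rfl

/-- V4 -/
theorem stmtChar : Vale.Agent.P260.H802.StmtChar := by
  intro Γ _ P hfg h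
  obtain ⟨S, hS⟩ := Group.fg_def.1 hfg
  have h1 : trA P.π ≤ (P.r 1 : ℚ) - P.r 0 := by
    simpa only [trA, au_eq_sum] using h
  obtain ⟨θ, hθ, hne⟩ := exists_char_of_trace P h1
  exact exists_surj_of_char S hS θ hθ hne

end Vale.Agent.P260.H324
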