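import Mathlib
import Vale.Agent.P260.H493.Spec

/-!
# P260 climb, module M9: finitely generated free resolutions from resolutions by projective
modules with Brown's property
-/

namespace Vale.Agent.P260.H324

open Vale.Agent.P260.H493 (SEs)

section

variable {R : Type} [Ring R]

/-- Lifting of a map with values in the range. -/
theorem lift_range {P M N : Type} [AddCommGroup P] [Module R P] [Module.Projective R P]
    [AddCommGroup M] [Module R M] [AddCommGroup N] [Module R N]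
    (q : M →ₗ[R] N) (f : P →ₗ[R] N) (h : ∀ x, f x ∈ LinearMap.range q) :
    ∃ g : P →ₗ[R] M, ∀ x, q (g x) = f x := by
  obtain ⟨g, hg⟩ := Module.projective_lifting_property q.rangeRestrict
    (f.codRestrict (LinearMap.range q) h) q.surjective_rangeRestrict
  refine ⟨g, fun x => ?_⟩
  have := congrArg Subtype.val (LinearMap.congr_fun hg x)
  simpa using this

/-- The step: kernels of maps onto equivalent submodules are equivalent. -/
theorem SEs.step {F' F F1' F1 : Type} [AddCommGroup F'] [Module R F'] [Module.Projective R F']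
    [AddCommGroup F] [Module R F] [Module.Projective R F]
    [AddCommGroup F1'] [Module R F1'] [Module.Projective R F1']
    [AddCommGroup F1] [Module R F1] [Module.Projective R F1]
    {Z' : Submodule R F'} {Z : Submodule R F} (h : SEs Z' Z)
    (p : F1' →ₗ[R] F') (q : F1 →ₗ[R] F) (hp : LinearMap.range p = Z')
    (hq : LinearMap.range q = Z) : SEs (LinearMap.ker p) (LinearMap.ker q) := by
  obtain ⟨a, b, e', e, ha, hb, he', he, h1, h2⟩ := h
  have hp' : ∀ x, p x ∈ Z' := fun x => hp ▸ LinearMap.mem_range_self p x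
  have hq' : ∀ x, q x ∈ Z := fun x => hq ▸ LinearMap.mem_range_self q x
  obtain ⟨a1, ha1⟩ := lift_range q (a ∘ₗ p) (fun x => by rw [hq]; exact ha _ (hp' x))
  obtain ⟨b1, hb1⟩ := lift_range p (b ∘ₗ q) (fun x => by rw [hp]; exact hb _ (hq' x))
  obtain ⟨η', hη'⟩ := lift_range p e' (fun x => by rw [hp]; exact he' x)
  obtain ⟨η, hη⟩ := lift_range q e (fun x => by rw [hq]; exact he x)
  refine ⟨a1, b1, LinearMap.id - b1 ∘ₗ a1 - η' ∘ₗ p, LinearMap.id - a1 ∘ₗ b1 - η ∘ₗ q,
    ?_, ?_, ?_, ?_, ?_, ?_⟩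
  · intro x hx
    rw [LinearMap.mem_ker] at hx ⊢
    rw [ha1, LinearMap.comp_apply, hx, map_zero]
  · intro x hx
    rw [LinearMap.mem_ker] at hx ⊢
    rw [hb1, LinearMap.comp_apply, hx, map_zero]
  · intro x
    rw [LinearMap.mem_ker]
    simp only [LinearMap.sub_apply, LinearMap.id_apply, LinearMap.comp_apply, map_sub]
    rw [hb1, LinearMap.comp_apply, ha1, LinearMap.comp_apply, hη', ← h1 _ (hp' x)]
    abel
  · intro x
    rw [LinearMap.mem_ker]
    simp only [LinearMap.sub_apply, LinearMap.id_apply, LinearMap.comp_apply, map_sub]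
    rw [ha1, LinearMap.comp_apply, hb1, LinearMap.comp_apply, hη, ← h2 _ (hq' x)]
    abel
  · intro x hx
    rw [LinearMap.mem_ker] at hx
    simp [hx]
  · intro x hx
    rw [LinearMap.mem_ker] at hx
    simp [hx]

/-- The base: kernels of two surjections onto the same module. -/
theorem SEs.base {F' F K : Type} [AddCommGroup F'] [Module R F'] [Module.Projective R F']
    [AddCommGroup F] [Module R F] [Module.Projective R F] [AddCommGroup K] [Module R K]
    (p : F' →ₗ[R] K) (q : F →ₗ[R] K) (hp : Function.Surjective p) (hq : Function.Surjective q) :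
    SEs (LinearMap.ker p) (LinearMap.ker q) := by
  obtain ⟨a, ha⟩ := lift_range q p (fun x => LinearMap.mem_range.2 (hq _))
  obtain ⟨b, hb⟩ := lift_range p q (fun x => LinearMap.mem_range.2 (hp _))
  refine ⟨a, b, LinearMap.id - b ∘ₗ a, LinearMap.id - a ∘ₗ b, ?_, ?_, ?_, ?_, ?_, ?_⟩
  · intro x hx
    rw [LinearMap.mem_ker] at hx ⊢
    rw [ha, hx]
  · intro x hx
    rw [LinearMap.mem_ker] at hx ⊢
    rw [hb, hx]
  · intro x
    rw [LinearMap.mem_ker]
    simp [hb, ha]
  · intro x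
    rw [LinearMap.mem_ker]
    simp [hb, ha]
  · intro x _
    simp
  · intro x _
    simp

/-- Finite generation through an equivalence. -/
theorem SEs.fg {F' F : Type} [AddCommGroup F'] [Module R F'] [Module.Finite R F']
    [AddCommGroup F] [Module R F] {Z' : Submodule R F'} {Z : Submodule R F} (h : SEs Z' Z)
    (hB : ∀ X : Submodule R F, X.FG → ∃ E : Submodule R F, E.FG ∧ (∀ v ∈ E, v ∈ Z) ∧
      ∀ v ∈ X, v ∈ Z → v ∈ E) : Z'.FG := by
  obtain ⟨a, b, e', e, ha, hb, he', he, h1, h2⟩ := h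
  have hX : (LinearMap.range a).FG := by
    rw [LinearMap.range_eq_map]
    exact Module.Finite.fg_top.map a
  obtain ⟨E, hE, hEZ, hXE⟩ := hB _ hX
  have hZ : Z' = LinearMap.range e' ⊔ E.map b := by
    apply le_antisymm
    · intro x hx
      have h3 : x = e' x + b (a x) := by rw [← h1 x hx]; abel
      rw [h3]
      exact Submodule.add_mem_sup (LinearMap.mem_range_self e' x)
        (Submodule.mem_map_of_mem (hXE _ (LinearMap.mem_range_self a x) (ha x hx)))
    · refine sup_le ?_ ?_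
      · rintro _ ⟨x, rfl⟩
        exact he' x
      · rintro _ ⟨x, hx, rfl⟩
        exact hb x (hEZ x hx)
  rw [hZ]
  refine Submodule.FG.sup ?_ (hE.map b)
  rw [LinearMap.range_eq_map]
  exact Module.Finite.fg_top.map e'

/-- A finitely generated submodule is the range of a map from a free module of finite rank. -/
theorem exists_cover {F' : Type} [AddCommGroup F'] [Module R F'] {Z' : Submodule R F'}
    (h : Z'.FG) : ∃ (n : ℕ) (p : (Fin n → R) →ₗ[R] F'), LinearMap.range p = Z' := by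
  have : Module.Finite R Z' := Module.Finite.iff_fg.2 h
  obtain ⟨n, f, hf⟩ := Module.Finite.exists_fin' R Z'
  refine ⟨n, Z'.subtype ∘ₗ f, ?_⟩
  rw [LinearMap.range_comp, LinearMap.range_eq_top.2 hf, Submodule.map_top,
    Submodule.range_subtype]

end

section

variable (R : Type) [Ring R] (K : Type) [AddCommGroup K] [Module R K]
  (F : ℕ → Type) [∀ i, AddCommGroup (F i)] [∀ i, Module R (F i)]
  (d : ∀ i, F (i + 1) →ₗ[R] F i) (ε : F 0 →ₗ[R] K)

/-- the kernels of the complex `F` -/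
def ZZ : ∀ i, Submodule R (F i)
  | 0 => LinearMap.ker ε
  | i + 1 => LinearMap.ker (d i)

/-- the state of the recursion -/
def St (M i : ℕ) : Type :=
  {x : (n : ℕ) × Submodule R (Fin n → R) // i ≤ M + 1 → SEs x.2 (ZZ R K F d ε i)}

variable [∀ i, Module.Projective R (F i)] (M : ℕ)

theorem exists_next (hr : ∀ i, i ≤ M → LinearMap.range (d i) = ZZ R K F d ε i)
    (hB : ∀ i, i ≤ M → ∀ X : Submodule R (F i), X.FG → ∃ E : Submodule R (F i), E.FG ∧
      (∀ v ∈ E, v ∈ ZZ R K F d ε i) ∧ ∀ v ∈ X, v ∈ ZZ R K F d ε i → v ∈ E)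
    (i : ℕ) (x : St R K F d ε M i) : ∃ (y : St R K F d ε M (i + 1))
      (p : (Fin y.1.1 → R) →ₗ[R] (Fin x.1.1 → R)),
      i ≤ M → LinearMap.range p = x.1.2 ∧ y.1.2 = LinearMap.ker p := by
  by_cases hi : i ≤ M
  · have hS := x.2 (by omega)
    have hfg : x.1.2.FG := SEs.fg hS (hB i hi)
    obtain ⟨n, p, hp⟩ := exists_cover hfg
    refine ⟨⟨⟨n, LinearMap.ker p⟩, fun _ => ?_⟩, p, fun _ => ⟨hp, rfl⟩⟩
    exact SEs.step hS p (d i) hp (hr i hi)
  · exact ⟨⟨⟨0, ⊥⟩, fun h => by omega⟩, 0, fun h => absurd h hi⟩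

end

/-- M9 -/
theorem stmtSE_aux (R : Type) [Ring R] (K : Type) [AddCommGroup K] [Module R K]
    [Module.Finite R K] (F : ℕ → Type) [∀ i, AddCommGroup (F i)] [∀ i, Module R (F i)]
    [∀ i, Module.Projective R (F i)] (d : ∀ i, F (i + 1) →ₗ[R] F i) (ε : F 0 →ₗ[R] K) (M : ℕ)
    (hε : Function.Surjective ε)
    (h0 : ∀ v, ε v = 0 ↔ ∃ w, d 0 w = v)
    (hex : ∀ i, i < M → ∀ v, d i v = 0 ↔ ∃ w, d (i + 1) w = v)
    (hB0 : ∀ X : Submodule R (F 0), X.FG → ∃ E : Submodule R (F 0), E.FG ∧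
      (∀ v ∈ E, ε v = 0) ∧ ∀ v ∈ X, ε v = 0 → v ∈ E)
    (hB : ∀ i, i < M → ∀ X : Submodule R (F (i + 1)), X.FG →
      ∃ E : Submodule R (F (i + 1)), E.FG ∧
      (∀ v ∈ E, d i v = 0) ∧ ∀ v ∈ X, d i v = 0 → v ∈ E) :
    ∃ (r : ℕ → ℕ) (d' : ∀ i, (Fin (r (i + 1)) → R) →ₗ[R] (Fin (r i) → R))
      (ε' : (Fin (r 0) → R) →ₗ[R] K),
      Function.Surjective ε' ∧ (∀ v, ε' v = 0 ↔ ∃ w, d' 0 w = v) ∧
      (∀ i, i < M → ∀ v, d' i v = 0 ↔ ∃ w, d' (i + 1) w = v) ∧
      SEs (LinearMap.ker ε') (LinearMap.ker ε) ∧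
      ∀ i, i ≤ M → SEs (LinearMap.ker (d' i)) (LinearMap.ker (d i)) := by
  have hr : ∀ i, i ≤ M → LinearMap.range (d i) = ZZ R K F d ε i := by
    intro i hi
    cases i with
    | zero => ext v; simp [ZZ, h0]
    | succ i => ext v; simp [ZZ, hex i (by omega)]
  have hB' : ∀ i, i ≤ M → ∀ X : Submodule R (F i), X.FG → ∃ E : Submodule R (F i), E.FG ∧
      (∀ v ∈ E, v ∈ ZZ R K F d ε i) ∧ ∀ v ∈ X, v ∈ ZZ R K F d ε i → v ∈ E := by
    intro i hi
    cases i with
    | zero => simpa [ZZ] using hB0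
    | succ i => simpa [ZZ] using hB i (by omega)
  obtain ⟨n, ε', hε'⟩ := Module.Finite.exists_fin' R K
  let x0 : St R K F d ε M 0 := ⟨⟨n, LinearMap.ker ε'⟩, fun _ => SEs.base ε' ε hε' hε⟩
  choose nxt p hp using exists_next R K F d ε M hr hB'
  let x : ∀ i, St R K F d ε M i := fun i => Nat.rec x0 (fun i y => nxt i y) i
  have hx : ∀ i, x (i + 1) = nxt i (x i) := fun i => rfl
  refine ⟨fun i => (x i).1.1, fun i => p i (x i), ε', hε', ?_, ?_, ?_, ?_⟩
  · intro v
    have h1 := (hp 0 (x 0) (Nat.zero_le _)).1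
    have h2 : (v ∈ LinearMap.range (p 0 (x 0))) ↔ v ∈ LinearMap.ker ε' := by
      rw [h1]
      exact Iff.rfl
    rw [← LinearMap.mem_ker, ← h2, LinearMap.mem_range]
  · intro i hi v
    have h1 := (hp i (x i) (by omega)).2
    have h2 := (hp (i + 1) (x (i + 1)) (by omega)).1
    have h3 : LinearMap.range (p (i + 1) (x (i + 1))) = LinearMap.ker (p i (x i)) := by
      rw [h2]; exact h1
    have h4 : (v ∈ LinearMap.range (p (i + 1) (x (i + 1)))) ↔ v ∈ LinearMap.ker (p i (x i)) := by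
      rw [h3]
    rw [← LinearMap.mem_ker, ← h4, LinearMap.mem_range]
  · exact SEs.base ε' ε hε' hε
  · intro i hi
    have h1 := (hp i (x i) hi).2
    have h2 := (x (i + 1)).2 (by omega)
    have h3 : (x (i + 1)).1.2 = LinearMap.ker (p i (x i)) := h1
    rw [h3] at h2
    exact h2

/-- M9 -/
theorem stmtSE : Vale.Agent.P260.H493.StmtSE := by
  intro R _ K _ _ _ F _ _ _ d ε M hε h0 hex hB0 hB
  exact stmtSE_aux R K F d ε M hε h0 hex hB0 hB

end Vale.Agent.P260.H324
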